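import Vale.Agent.P272L68.B
import Vale.Agent.P272L68.C
import Vale.Agent.P272.TOP.Q1

/-!
# P272: Kobayashi's canonical-ampleness conjecture, with the objects as posed

A compact connected complex manifold of dimension `n ≥ 1` which has a Kähler form and is hyperbolic
(in the sense of Brody or of Kobayashi) has ample canonical bundle: global holomorphic sections of
some `K_X^{⊗ m}`, `K_X = ⋀ⁿ (T^{1,0} X)^*`, define a holomorphic embedding into a projective space.
-/

open scoped Manifold ContDiff

namespace Vale.Agent.Results.P272.AALiteral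

open Vale.Agent.P272L
open Vale.Agent.P272.K (Cm)

theorem result (n : ℕ) (hn : 1 ≤ n) (X : Type) [TopologicalSpace X] [T2Space X] [CompactSpace X]
    [ConnectedSpace X] [ChartedSpace (Cm n) X] [IsManifold 𝓘(ℂ, Cm n) ω X]
    (η : Form2 (Cm n) X) (hη : IsKahlerForm η) (hX : Brody (Cm n) X ∨ Kobayashi (Cm n) X) :
    Ample (Cm n) X n :=
  ample_of (Vale.Agent.P272.TOP.q1 n hn X (hX.elim id Kobayashi.brody) _ hη.isKahler)

end Vale.Agent.Results.P272.AALiteral
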